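import Vale.Agent.P287D.Gs.Bas
import Vale.Agent.P287D.Va.Cone
import Vale.Agent.P287D.Ba.Bar
import Vale.Agent.P287D.Bm.Sub

/-!
# P287D: the negativity lemma
-/

set_option linter.all false

open Set
open Vale.Agent.P297 (Place)
open Vale.Agent.P277Z Vale.Agent.P277Z.FI

noncomputable section

namespace Vale.Agent.P287D.Pr

open Ba Gs

variable {n : ℕ} {K : Type} [Field K] [Algebra ℂ K] {Λ Λ' A β γ : BD K} {P Q : Pl K}

theorem res_sub (hR : RES) (hK : FF K (n + 1)) (P : Pl K) (h : β ∈ Car K) (h' : γ ∈ Car K) :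
    res P (β - γ) = res P β - res P γ := by
  rw [sub_eq_add_neg, ← neg_one_smul ℝ γ, hR.add n K hK P β h _ ((Car K).smul_mem _ h'),
    hR.smul n K hK P _ γ h', neg_one_smul, sub_eq_add_neg]

/-- ample divisors are big on the prime divisors -/
theorem big_res (hR : RES) {M : Mdl (n + 1) 0 K} (hM : M.Proj) {H : P277Z.Div K} (hA : M.Amp H)
    (iA : IsInt H) (hP : M.Pr P.toPlace) : Big (res P (bar M H)) := fun s' => by
  classical
  have hK := Bm.ff hM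
  choose g g1 g2 using Bm.rd_surj P
  have h1 : (1 : K) ∈ insert 1 (s'.image g) := Finset.mem_insert_self _ _
  have hm : ∀ f ∈ insert 1 (s'.image g), f ∈ P.ring := fun f hf => by
    rcases Finset.mem_insert.1 hf with rfl | hf
    · exact one_mem _
    · obtain ⟨u, -, rfl⟩ := Finset.mem_image.1 hf
      exact g1 u
  have hz : P.mz (insert 1 (s'.image g)) = 0 := by
    rw [P.mz_eq h1 one_ne_zero fun f hf _ => by
      simpa using P297Z.Pl.ord_nonneg_of_mem _ (hm f hf)]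
    simp
  have hs : ∀ u ∈ insert 1 s', u ∈ P.rs (insert 1 (s'.image g)) := fun u hu => by
    rw [Pl.rs, hz]
    rcases Finset.mem_insert.1 hu with rfl | hu
    · exact Finset.mem_image.2 ⟨1, h1, by simp [Bm.rd_one]⟩
    · exact Finset.mem_image.2 ⟨g u, Finset.mem_insert_of_mem (Finset.mem_image_of_mem g hu),
        by simp [g2]⟩
  have hle : mx s' ≤ mx (P.rs (insert 1 (s'.image g))) := by
    by_cases e : Nz s'
    · exact mx_mono e fun u hu => hs u (Finset.mem_insert_of_mem hu)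
    · rw [mx_of_not e]
      exact mx_nonneg (hs 1 (Finset.mem_insert_self _ _))
  generalize insert 1 (s'.image g) = s at *
  obtain ⟨m, hm⟩ := (hpos hM).gg H (-sys M s) hA iA (IsInt.neg (int_sys hM s))
  obtain ⟨w, hw⟩ := mx_of_free hM (hm (m + 1) m.le_succ)
  have c1 := bar_car hM (sys M s)
  have c2 := mx_mem_Car s
  have k := hR.nn n K hK P _ (sub_mem c1 c2)
    (sub_nonneg.2 (Ba.mx_le hM ⟨1, h1, one_ne_zero⟩ fun _ => mem_sys hM))
    (by rw [Pi.sub_apply, bar_pr hM hP, sys_pl hM s hP, sub_self])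
  rw [res_sub hR hK P c1 c2, hR.sys n K hK] at k
  have e : ((m + 1 : ℕ) : ℝ) • res P (bar M H) = mx (P.rs w) + res P (bar M (sys M s)) := by
    rw [← hR.sys n K hK, ← hR.add n K hK P _ (mx_mem_Car w) _ c1, hw,
      ← hR.smul n K hK P _ _ (bar_car hM H), map_add, map_neg, map_smul]
    congr 1
    abel
  have m0 : (0 : ℝ) < ((m + 1 : ℕ) : ℝ) := by positivity
  refine ⟨_, inv_pos.2 m0, Eff.of_smul m0 ?_⟩
  rw [smul_sub, smul_inv_smul₀ m0.ne', e, add_sub_assoc]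
  exact (P287D.eff_mx _).add (.of_nonneg (sub_nonneg.2 (hle.trans (sub_nonneg.1 k))))

/-- a criterion for `P` to be a prime divisor of `V Λ` -/
theorem on_of (hR : RES) (hK : FF K (n + 1)) (hΛ : Smp Λ) (hA : A ∈ Car K) (bA : Big (res P A))
    (hγ : γ ∈ Car K) (h0 : 0 ≤ γ) (hP : γ P = 0) {a m : ℝ} (ha : 0 < a)
    (h : Nef (m • Λ - a • A - γ)) : On n Λ P := by
  refine (hR.on n K hK Λ P hΛ).2 (Big.of_smul (c := |m| + 1) (by positivity) ?_)
  have k := hR.nef n K hK P _ h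
  have cA := (Car K).smul_mem a hA
  have cΛ := (Car K).smul_mem m hΛ.car
  rw [res_sub hR hK P (sub_mem cΛ cA) hγ, res_sub hR hK P cΛ cA, hR.smul n K hK P _ _ hA,
    hR.smul n K hK P _ _ hΛ.car] at k
  have b := (((bA.smul ha).add_nef k).add_eff (.of_nonneg (hR.nn n K hK P γ hγ h0 hP))).add_nef
    ((hR.nef n K hK P _ hΛ.nef).smul (c := |m| + 1 - m) (by linarith [le_abs_self m]))
  have e : (|m| + 1) • res P Λ = a • res P A + (m • res P Λ - a • res P A - res P γ) + res P γ +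
      (|m| + 1 - m) • res P Λ := by module
  rw [e]
  exact b

/-- **the negativity lemma** -/
theorem neg (hR : RES) (hK : FF K (n + 1)) {c : ℝ} (hΛ : Smp Λ) (bΛ : Big Λ) (hβ : β ∈ Car K)
    (h : Nef (β + c • Λ)) (h0 : ∀ P, On n Λ P → β P ≤ 0) : β ≤ 0 := by
  classical
  obtain ⟨M, D, hM, hD⟩ := com' hK (β := fun b : Bool => cond b β Λ) fun b => by
    cases b
    exacts [hΛ.car, hβ]
  obtain ⟨H, -, iH, hH⟩ := (hpos hM).ex
  obtain ⟨ε, e, G, G0, hG⟩ := bΛ.exists_eff (bar_car hM H)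
  obtain ⟨Z, -, hZ⟩ := prn_bar hM hG
  have eβ : β = bar M (D true) := (hD true).2.1
  have eΛ : Λ = bar M (D false) := (hD false).2.1
  have eG : G = bar M (Z + (D false - ε • H)) := by
    rw [map_add, map_sub, map_smul, ← eΛ, hZ, sub_add_cancel]
  have cG : G ∈ Car K := eG ▸ bar_car hM _
  have pG : ∀ Q : Pl K, M.Pr Q.toPlace → 0 < β Q → 0 < G Q := fun Q hQ b =>
    (G0 Q).lt_of_ne fun k => (h0 Q (on_of hR hK hΛ (bar_car hM H) (big_res hR hM hH iH hQ) cG G0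
      k.symm e (m := 1) (.of_prn (by simpa using neg_mem hG)))).not_gt b
  have all : ∀ t : ℝ, (∀ Q : Pl K, M.Pr Q.toPlace → β Q ≤ t * G Q) → 0 ≤ t • G - β := fun t k => by
    rw [eG, eβ, ← map_smul, ← map_sub]
    refine bar_nonneg' hM fun Q hQ => ?_
    obtain ⟨Q, rfl⟩ := Bm.pl_of_pr hM hQ
    rw [← bar_pr hM hQ, map_sub, map_smul, ← eG, ← eβ]
    exact sub_nonneg.2 (k Q hQ)
  have fin : {Q : Pl K | M.Pr Q.toPlace ∧ 0 < β Q}.Finite :=
    ((D true).support.finite_toSet.preimage pl_inj.injOn).subset fun Q hQ =>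
      Finsupp.mem_support_iff.2 (by rw [← bar_pr hM hQ.1, ← eβ]; exact hQ.2.ne')
  rcases eq_empty_or_nonempty {Q : Pl K | M.Pr Q.toPlace ∧ 0 < β Q} with k | k
  · simpa using all 0 fun Q hQ => by
      simpa using not_lt.1 fun b => (eq_empty_iff_forall_notMem.1 k Q) ⟨hQ, b⟩
  obtain ⟨Q, ⟨q1, q2⟩, q3⟩ := exists_max_image _ (fun Q => β Q / G Q) fin k
  have q4 := pG Q q1 q2
  have t0 := div_pos q2 q4
  have k := all (β Q / G Q) fun R hR => by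
    rcases le_or_gt (β R) 0 with b | b
    · exact b.trans (mul_nonneg t0.le (G0 R))
    · exact (div_le_iff₀ (pG R hR b)).1 (q3 R ⟨hR, b⟩)
  refine ((h0 Q (on_of hR hK hΛ (bar_car hM H) (big_res hR hM hH iH q1)
    (sub_mem ((Car K).smul_mem _ cG) hβ) k (by simp [q4.ne']) (mul_pos t0 e)
    (m := β Q / G Q + c) (h.congr ?_))).not_gt q2).elim
  have w : (β Q / G Q + c) • Λ - (β Q / G Q * ε) • bar M H - ((β Q / G Q) • G - β) -
      (β + c • Λ) = -(β Q / G Q) • (G - (Λ - ε • bar M H)) := by module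
  rw [w]
  exact (Prn K).smul_mem _ hG

/-- **HART**: the pull back of an effective divisor is effective -/
theorem hart (hR : RES) (hK : FF K (n + 1)) (hΛ : Smp Λ) (bΛ : Big Λ) (h : Dsc Λ β)
    (h0 : ∀ P, On n Λ P → 0 ≤ β P) : 0 ≤ β := by
  obtain ⟨ε, e, -, k⟩ := id h
  refine neg_nonpos.1 (neg hR hK (c := ε⁻¹) hΛ bΛ (neg_mem (dsc_car hΛ h))
    (Nef.of_smul e ?_) fun P hP => neg_nonpos.2 (h0 P hP))
  rw [smul_add, smul_inv_smul₀ e.ne', smul_neg, neg_add_eq_sub]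
  exact k.nef

theorem hart_le (hR : RES) (hK : FF K (n + 1)) (hΛ : Smp Λ) (bΛ : Big Λ) (h : Dsc Λ β)
    (h' : Dsc Λ γ) (h0 : ∀ P, On n Λ P → β P ≤ γ P) : β ≤ γ :=
  sub_nonneg.1 (hart hR hK hΛ bΛ (dsc_sub hΛ h' h) fun P hP => sub_nonneg.2 (h0 P hP))

theorem hart_eq (hR : RES) (hK : FF K (n + 1)) (hΛ : Smp Λ) (bΛ : Big Λ) (h : Dsc Λ β)
    (h' : Dsc Λ γ) (h0 : ∀ P, On n Λ P → β P = γ P) : β = γ :=
  le_antisymm (hart_le hR hK hΛ bΛ h h' fun P hP => (h0 P hP).le)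
    (hart_le hR hK hΛ bΛ h' h fun P hP => (h0 P hP).ge)

/-- a class which is nef over `V Λ` is bounded by the hull of its trace -/
theorem le_hull (hR : RES) (hK : FF K (n + 1)) {c : ℝ} (hΛ : Smp Λ) (bΛ : Big Λ)
    (h : Nef (β + c • Λ)) (h' : Dsc Λ γ) (h0 : ∀ P, On n Λ P → β P ≤ γ P) : β ≤ γ := by
  obtain ⟨ε, e, -, k⟩ := id h'
  have cβ : β ∈ Car K := by simpa using sub_mem h.car ((Car K).smul_mem c hΛ.car)
  refine sub_nonpos.1 (neg hR hK (c := c + ε⁻¹) hΛ bΛ (sub_mem cβ (dsc_car hΛ h')) ?_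
    fun P hP => sub_nonpos.2 (h0 P hP))
  have w : β - γ + (c + ε⁻¹) • Λ = β + c • Λ + ε⁻¹ • (Λ - ε • γ) := by
    rw [smul_sub, inv_smul_smul₀ e.ne']; module
  rw [w]
  exact h.add (k.nef.smul (inv_pos.2 e).le)

/-- the strict form, semiample case -/
theorem pos_of_cle {c : ℝ} (hc : 0 < c) (h : Smp (c • Λ - β)) (h0 : 0 ≤ β) (hP : 0 < β P)
    (e : CLe Λ Q P) : 0 < β Q := by
  obtain ⟨G, hG, k⟩ := h.exists_rep (finite_singleton Q)
  have r := (hG.add (Rep.refl h0)).smul (inv_pos.2 hc).le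
  rw [sub_add_cancel, inv_smul_smul₀ hc.ne'] at r
  have a := e _ r (mul_pos (inv_pos.2 hc) (add_pos_of_nonneg_of_pos (hG.1 P) hP))
  simpa [k Q rfl, hc] using a

theorem on_mono (hR : RES) (hK : FF K (n + 1)) (hΛ : Smp Λ) (hΛ' : Smp Λ') (h : Dsc Λ' Λ)
    (hP : On n Λ P) : On n Λ' P :=
  (hR.on n K hK _ P hΛ').2 (big_of_dsc (hR.des n K hK _ _ P h) ((hR.on n K hK _ P hΛ).1 hP))

theorem on_iff (hR : RES) (hK : FF K (n + 1)) (hΛ : Smp Λ) (h : AmpOn Λ Λ') :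
    On n Λ P ↔ On n Λ' P :=
  ⟨on_mono hR hK hΛ (ampOn_smp hΛ h) (ampOn_dsc hΛ h), on_mono hR hK (ampOn_smp hΛ h) hΛ h.1⟩

/-- the traces on the models are finite sums -/
def ISB : Prop := ForS fun n K _ _ => (∀ β ∈ Car K, IsB n β) ∧ IsB n (cn K (n + 1))

theorem ISB.of (h : MOD) : ISB := fun n K _ _ hK => ⟨(h.isb n K hK).1, (h.isb n K hK).2.1⟩

theorem fin_on (hR : RES) (hK : FF K (n + 1)) (hΛ : Smp Λ) (bΛ : Big Λ) (h : IsB n β) :
    {P | On n Λ P ∧ β P ≠ 0}.Finite :=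
  let ⟨s, hs⟩ := Gs.exists_mx hΛ
  (h s (big_ampOn bΛ hs)).subset fun _ hP => ⟨(on_iff hR hK hΛ hs).1 hP.1, hP.2⟩

/-- the support of a pull back -/
theorem pos_iff (hR : RES) (hI : ISB) (hK : FF K (n + 1)) (hΛ : Smp Λ) (bΛ : Big Λ) (h : Dsc Λ β)
    (h0 : 0 ≤ β) : 0 < β Q ↔ ∃ P, On n Λ P ∧ 0 < β P ∧ CLe Λ Q P := by
  classical
  refine ⟨fun hQ => by_contra fun k => ?_, fun ⟨P, _, b, c⟩ => ?_⟩
  · have fin := fin_on hR hK hΛ bΛ ((hI n K hK).1 β (dsc_car hΛ h))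
    have ex : ∀ P ∈ fin.toFinset, ∃ G, Rep Λ G ∧ 0 < G P ∧ G Q = 0 := fun P hP => by
      obtain ⟨a, b⟩ := fin.mem_toFinset.1 hP
      by_contra! w
      exact k ⟨P, a, (h0 P).lt_of_ne b.symm, fun G r g => (r.1 Q).lt_of_ne (w G r g).symm⟩
    choose! G g1 g2 g3 using ex
    have le := hart_le hR hK hΛ bΛ h (γ := ∑ P ∈ fin.toFinset, (β P / G P P) • G P)
      ((dS hΛ).sum_mem fun P hP => dsc_smul hΛ _ (by
        simpa using dsc_add hΛ (dsc_prn hΛ (g1 P hP).2) (dsc_self hΛ))) fun P hP => by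
      have nn : ∀ R ∈ fin.toFinset, 0 ≤ ((β R / G R R) • G R) P := fun R hR =>
        mul_nonneg (div_nonneg (h0 R) (g2 R hR).le) ((g1 R hR).1 P)
      rw [Finset.sum_apply]
      by_cases b : β P = 0
      · exact b.le.trans (Finset.sum_nonneg nn)
      · have m := fin.mem_toFinset.2 ⟨hP, b⟩
        refine le_trans (le_of_eq ?_) (Finset.single_le_sum nn m)
        simp [(g2 P m).ne']
    have := le Q
    rw [Finset.sum_apply, Finset.sum_eq_zero fun P hP => by simp [g3 P hP]] at this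
    exact this.not_gt hQ
  · obtain ⟨ε, e, -, a⟩ := h
    refine pos_of_cle (inv_pos.2 e) (Smp.of_smul e ?_) h0 b c
    rwa [smul_sub, smul_inv_smul₀ e.ne']

/-- on a `ℚ`-factorial variety every divisor has a pull back -/
theorem exists_hull (hR : RES) (hK : FF K (n + 1)) (hΛ : Smp Λ) (bΛ : Big Λ) (hQ : QF n Λ)
    {Z : BD K} (h : IsB n Z) : ∃ γ, Hull n Λ Z γ := by
  classical
  have fin := fin_on hR hK hΛ bΛ h
  choose! b b1 b2 using hQ
  refine ⟨∑ P ∈ fin.toFinset, Z P • b P, (dS hΛ).sum_mem fun P hP =>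
    dsc_smul hΛ _ (b2 P (fin.mem_toFinset.1 hP).1).1, fun P hP => ?_⟩
  rw [Finset.sum_apply, Finset.sum_eq_single P (fun R hR e => by
    simp [(b2 R (fin.mem_toFinset.1 hR).1).2 P hP, Pl.δ_ne e.symm]) fun e => by
      simp [not_not.1 fun k => e (fin.mem_toFinset.2 ⟨hP, k⟩)]]
  simp [(b2 P hP).2 P hP, P.δ_self]

/-- an exceptional divisor which is anti-ample -/
theorem exa (hR : RES) (hI : ISB) (hK : FF K (n + 1)) (hΛ : Smp Λ) (bΛ : Big Λ) (hΛ' : Smp Λ')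
    (h : Dsc Λ' Λ) (hQ : QF n Λ) : ∃ E : BD K, 0 ≤ E ∧ (∀ P, On n Λ P → E P = 0) ∧
      (∀ P, ¬ On n Λ P → On n Λ' P → 0 < E P) ∧ AmpOn Λ' (Λ - E) := by
  obtain ⟨γ, g1, g2⟩ := exists_hull hR hK hΛ bΛ hQ ((hI n K hK).1 _ hΛ'.car)
  have le : Λ' ≤ γ := le_hull hR hK (c := 0) hΛ bΛ (by simpa using hΛ'.nef) g1
    fun P hP => (g2 P hP).ge
  obtain ⟨ε, e, -, k⟩ := id g1
  have n0 := smul_nonneg e.le (sub_nonneg.2 le)
  refine ⟨ε • (γ - Λ'), n0, fun P hP => by simp [g2 P hP],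
    fun P a b => (n0 P).lt_of_ne fun z => a (on_of hR hK hΛ hΛ'.car ((hR.on n K hK _ P hΛ').1 b)
      ((Car K).smul_mem _ (sub_mem (dsc_car hΛ g1) hΛ'.car)) n0 z.symm e (m := 1) ?_),
    dsc_sub hΛ' h (dsc_smul hΛ' _ (dsc_sub hΛ' (dsc_trans h g1) (dsc_self hΛ'))), ε, e, ?_⟩
  · have w : (1 : ℝ) • Λ - ε • Λ' - ε • (γ - Λ') = Λ - ε • γ := by module
    rw [w]
    exact k.nef
  · have w : Λ - ε • (γ - Λ') - ε • Λ' = Λ - ε • γ := by module
    rw [w]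
    exact k

theorem cle_mono (h : Dsc Λ' Λ) (e : CLe Λ' P Q) : CLe Λ P Q := fun G r g => by
  obtain ⟨ε, e0, -, k⟩ := h
  refine pos_of_cle (inv_pos.2 e0) (Smp.of_smul e0 (k.congr ?_)) r.1 g e
  have w : ε • (ε⁻¹ • Λ' - G) - (Λ' - ε • Λ) = -ε • (G - Λ) := by
    rw [smul_sub, smul_inv_smul₀ e0.ne']; module
  rw [w]
  exact (Prn K).smul_mem _ r.2

theorem fld_mono (h : Dsc Λ' Λ) : fld Λ ≤ fld Λ' := by
  obtain ⟨ε, e, -, k⟩ := h
  refine IntermediateField.adjoin.mono _ _ _ fun f ⟨δ, d, a⟩ => ⟨ε * δ, mul_pos e d, ?_⟩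
  have b := k.eff.add (a.smul e.le)
  rw [smul_sub, smul_smul, sub_add_sub_cancel] at b
  exact b

theorem dsc_iff (hΛ : Smp Λ) (h : AmpOn Λ Λ') : Dsc Λ β ↔ Dsc Λ' β :=
  ⟨dsc_trans (ampOn_dsc hΛ h), dsc_trans h.1⟩

theorem iso (hR : RES) (hK : FF K (n + 1)) (hΛ : Smp Λ) (h : AmpOn Λ Λ') :
    fld Λ = fld Λ' ∧ Pic Λ = Pic Λ' ∧ (∀ P, On n Λ P ↔ On n Λ' P) ∧
      (∀ β, Dsc Λ β ↔ Dsc Λ' β) ∧ ∀ P Q, CLe Λ P Q ↔ CLe Λ' P Q :=
  ⟨le_antisymm (fld_mono (ampOn_dsc hΛ h)) (fld_mono h.1),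
    by rw [Pic, Pic, show {β | Dsc Λ β} = {β | Dsc Λ' β} from Set.ext fun _ => dsc_iff hΛ h],
    fun _ => on_iff hR hK hΛ h, fun _ => dsc_iff hΛ h,
    fun _ _ => ⟨cle_mono h.1, cle_mono (ampOn_dsc hΛ h)⟩⟩

theorem ampOn_symm (hΛ : Smp Λ) (h : AmpOn Λ A) : AmpOn A Λ :=
  let ⟨ε, e, _, k⟩ := h.1
  ⟨ampOn_dsc hΛ h, ε, e, k⟩

end Vale.Agent.P287D.Pr
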