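import Vale.Agent.P287D.Pr.Neg

/-!
# P287D: the row `NEG`
-/

namespace Vale.Agent.P287D.Pr

open Gs

/-- the row `NEG` -/
theorem neg_of (hR : RES) (hI : ISB) : NEG where
  neg _ _ _ _ hK _ _ _ a b c d e := neg hR hK a b c d e
  nn _ _ _ _ hK _ _ a b c d :=
    ⟨hart hR hK a b c d, fun _ => pos_iff hR hI hK a b c (hart hR hK a b c d)⟩
  amp _ _ _ _ _ _ _ _ a b c := ⟨ampOn_smp a b, ampOn_symm a b, ampOn_add a b c,
    let ⟨ε, e, k⟩ := ampOn_small a b c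
    ⟨ε, e, k ε (abs_of_pos e).le⟩⟩
  exa _ _ _ _ hK _ _ a b c d e := exa hR hI hK a b c d e
  avoid _ _ _ _ _ _ _ a b := a.exists_rep b
  iso _ _ _ _ hK _ _ a _ c := iso hR hK a c

end Vale.Agent.P287D.Pr
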