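import Vale.Agent.P287D.Pr.Ls
import Vale.Agent.P287D.Pr.NegA
import Vale.Agent.P287D.Ba.Hy
import Vale.Agent.P287D.Ba.Mod

/-!
# P287D: pairs. Finite checks, thresholds, general members
-/

set_option linter.all false

open Set
open Vale.Agent.P297 (Place)
open Vale.Agent.P277Z Vale.Agent.P277Z.FI Vale.Agent.P277Z.F5

noncomputable section

namespace Vale.Agent.P287D

/-- the row `NEG` -/
theorem neg' : NEG := Pr.neg_of res' (.of Ba.mod)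

namespace Pr

open Ba

variable {n : ℕ} {K : Type} [Field K] [Algebra ℂ K] {Γ G F Λ A : BD K} {B : Set (BD K)}
  {T₀ : Set (Pl K)}

theorem isb : ISB := .of Ba.mod

theorem dsc_add (n : ℕ) (Γ G : BD K) (P : Pl K) : dsc n (Γ + G) P = dsc n Γ P - G P := by
  simp [dsc, sub_sub]

theorem dsc_add_smul (n : ℕ) (Γ G : BD K) (c : ℝ) (P : Pl K) :
    dsc n (Γ + c • G) P = dsc n Γ P - c * G P := dsc_add n Γ _ P

/-- a log resolution of one or two Cartier b-divisors -/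
theorem ls2 (hK : FF K (n + 1)) (hT : T₀.Finite) (h1 : Γ ∈ Car K) (h2 : G ∈ Car K) :
    ∃ (s : Finset K) (κ : BD K) (T : Finset (Pl K)) (h : Pl K → BD K), LS n (mx s) κ T h ∧
      (∀ P ∈ T₀, P ∈ T) ∧ Sup n (mx s) T (κ - Γ) ∧ Sup n (mx s) T G :=
  let ⟨s, κ, T, h, a, b, c, d⟩ := exists_ls hK hT (toFinite {Γ, G})
    (forall_mem_insert.2 ⟨h1, forall_eq.2 h2⟩)
  ⟨s, κ, T, h, a, b, c.sub (d _ (.inl rfl)), d _ (.inr rfl)⟩

/-- **finite check** -/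
theorem fin_chk (hK : FF K (n + 1)) (hB : B.Finite) (hc : ∀ β ∈ B, β ∈ Car K) :
    ∃ T : Finset (Pl K), ∀ Γ ∈ Submodule.span ℝ B, ∀ (Q : Pl K) (a : ℝ), 0 ≤ a →
      (a < 1 → dsc (n + 1) Γ Q + 1 ≤ a →
        ∃ P ∈ T, dsc (n + 1) Γ P + 1 ≤ a ∧ ∀ Λ ∈ Submodule.span ℝ B, CLe Λ Q P) ∧
      (a ≤ 1 → dsc (n + 1) Γ Q + 1 < a →
        ∃ P ∈ T, dsc (n + 1) Γ P + 1 < a ∧ ∀ Λ ∈ Submodule.span ℝ B, CLe Λ Q P) := by
  obtain ⟨s, κ, T, h, l, -, c, d⟩ := exists_ls hK finite_empty hB hc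
  refine ⟨T, fun Γ hΓ Q a a0 => ?_⟩
  have u := c.sub (Sup.span l.smp d hΓ)
  have v := fun P (p : P ∈ T) (q : 0 < h P Q) Λ (r : Λ ∈ Submodule.span ℝ B) =>
    l.cle (l.on P p) q (Sup.span l.smp d r).1
  exact ⟨fun a1 k => by_contra fun w => (l.gt u a0 a1 fun P p q =>
      not_le.1 fun z => w ⟨P, p, z, v P p q⟩).not_ge k,
    fun a1 k => by_contra fun w => (l.ge u a0 a1 fun P p q =>
      not_lt.1 fun z => w ⟨P, p, z, v P p q⟩).not_gt k⟩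

/-- **KLO**, on a set of places which is closed under generalisation -/
theorem klo_on (hK : FF K (n + 1)) (hΓ : Γ ∈ Car K) (hF : F ∈ Car K) (hΛ : Λ ∈ Car K)
    {S : Set (Pl K)} (up : ∀ Q ∈ S, ∀ P, CLe Λ Q P → P ∈ S) (k : ∀ Q ∈ S, -1 < dsc (n + 1) Γ Q) :
    ∃ C : ℝ, 0 < C ∧ ∀ Q ∈ S, 1 ≤ C * (dsc (n + 1) Γ Q + 1) ∧
      |F Q| ≤ C * (dsc (n + 1) Γ Q + 1) := by
  classical
  obtain ⟨s, κ, T, h, l, -, c, d⟩ := exists_ls hK finite_empty (toFinite {Γ, F, Λ})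
    (forall_mem_insert.2 ⟨hΓ, forall_mem_insert.2 ⟨hF, forall_eq.2 hΛ⟩⟩)
  have u := c.sub (d Γ (.inl rfl))
  obtain ⟨C, hC⟩ := (T.image fun P => (|F P| + 1) / (dsc (n + 1) Γ P + 1)).exists_le
  have C1 : 0 < max C 1 := one_pos.trans_le (le_max_right _ _)
  refine ⟨max C 1, C1, fun Q hQ => ?_⟩
  have m := fun P (p : P ∈ T) (q : 0 < h P Q) =>
    up Q hQ P (l.cle (l.on P p) q (d Λ (.inr (.inr rfl))).1)
  have b : ∀ P ∈ T, 0 < h P Q → |F P| + 1 ≤ max C 1 * (dsc (n + 1) Γ P + 1) := fun P p q =>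
    (div_le_iff₀ (by linarith [k P (m P p q)])).1
      ((hC _ (Finset.mem_image_of_mem _ p)).trans (le_max_left _ _))
  refine ⟨(inv_le_iff_one_le_mul₀' C1).1 (l.ge u (inv_pos.2 C1).le
    (inv_le_one_of_one_le₀ (le_max_right _ _)) fun P p q => (inv_le_iff_one_le_mul₀' C1).2
      ((le_add_of_nonneg_left (abs_nonneg _)).trans (b P p q))), ?_⟩
  rw [l.exp_apply (d F (.inr (.inl rfl))) Q, l.ld u Q, mul_add, Finset.mul_sum]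
  refine (Finset.abs_sum_le_sum_abs _ _).trans (le_add_of_nonneg_of_le
    (mul_nonneg C1.le (sub_nonneg.2 (l.snc Q))) (Finset.sum_le_sum fun P p => ?_))
  rcases (l.nn (l.on P p) Q).eq_or_lt with z | z
  · rw [← z]; simp
  · rw [abs_mul, abs_of_pos z, ← mul_assoc]
    exact mul_le_mul_of_nonneg_right (by linarith [b P p z]) z.le

/-- **KLO** -/
theorem klo (hK : FF K (n + 1)) (hΓ : Γ ∈ Car K) (hF : F ∈ Car K) (k : Klt (n + 1) Γ) :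
    ∃ C : ℝ, 0 < C ∧ ∀ Q, 1 ≤ C * (dsc (n + 1) Γ Q + 1) ∧ |F Q| ≤ C * (dsc (n + 1) Γ Q + 1) :=
  let ⟨C, a, b⟩ := klo_on hK hΓ hF hΓ (S := univ) (fun _ _ _ _ => trivial) fun Q _ => k Q
  ⟨C, a, fun Q => b Q trivial⟩

/-- klt pairs are `ε`-lc -/
theorem eps_lc (hK : FF K (n + 1)) (hΓ : Γ ∈ Car K) (k : Klt (n + 1) Γ) :
    ∃ ε : ℝ, 0 < ε ∧ ∀ Q, ε ≤ dsc (n + 1) Γ Q + 1 :=
  let ⟨C, a, b⟩ := klo hK hΓ hΓ k
  ⟨C⁻¹, inv_pos.2 a, fun Q => (inv_le_iff_one_le_mul₀' a).2 (b Q).1⟩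

theorem open_on (hK : FF K (n + 1)) (hΓ : Γ ∈ Car K) (hF : F ∈ Car K) (hΛ : Λ ∈ Car K)
    {S : Set (Pl K)} (up : ∀ Q ∈ S, ∀ P, CLe Λ Q P → P ∈ S) (k : ∀ Q ∈ S, -1 < dsc (n + 1) Γ Q) :
    ∃ ε : ℝ, 0 < ε ∧ ∀ t : ℝ, |t| ≤ ε → ∀ Q ∈ S, -1 < dsc (n + 1) (Γ + t • F) Q := by
  obtain ⟨C, a, b⟩ := klo_on hK hΓ hF hΛ up k
  refine ⟨(2 * C)⁻¹, by positivity, fun t ht Q hQ => ?_⟩
  have c : t * F Q ≤ (2 * C)⁻¹ * (C * (dsc (n + 1) Γ Q + 1)) := (le_abs_self _).trans (by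
    rw [abs_mul]
    exact mul_le_mul ht (b Q hQ).2 (abs_nonneg _) (by positivity))
  have e : (2 * C)⁻¹ * (C * (dsc (n + 1) Γ Q + 1)) = (dsc (n + 1) Γ Q + 1) / 2 := by field_simp
  rw [dsc_add_smul]
  linarith [k Q hQ]

/-- klt is an open condition -/
theorem klt_open (hK : FF K (n + 1)) (hΓ : Γ ∈ Car K) (hF : F ∈ Car K) (k : Klt (n + 1) Γ) :
    ∃ ε : ℝ, 0 < ε ∧ ∀ t : ℝ, |t| ≤ ε → Klt (n + 1) (Γ + t • F) :=
  let ⟨ε, a, b⟩ := open_on hK hΓ hF hΓ (S := univ) (fun _ _ _ _ => trivial) fun Q _ => k Q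
  ⟨ε, a, fun t ht Q => b t ht Q trivial⟩

/-- **LRC** -/
theorem lrc (hK : FF K (n + 1)) (hΓ : Γ ∈ Car K) (hT : T₀.Finite) : ∃ β ∈ CarZ K,
    (∀ R, β R ≤ ⌈dsc (n + 1) Γ R⌉) ∧ ∀ Q ∈ T₀, β Q = ⌈dsc (n + 1) Γ Q⌉ := by
  obtain ⟨s, κ, T, h, l, t, u, -⟩ := ls2 hK hT hΓ hΓ
  obtain ⟨a, b⟩ := l.hull_sum fun P => ⌈dsc (n + 1) Γ P⌉
  have z := sum_mem (t := T) fun P _ => CarZ.zsmul (l.hz P) ⌈dsc (n + 1) Γ P⌉
  have e := fun P (p : P ∈ T) => (b P (l.on P p)).trans (if_pos p)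
  refine ⟨_, z, fun R => ?_, fun Q q => e Q (t Q q)⟩
  have k := l.gt (Γ := Γ + _) (Q := R) (by
    rw [← sub_sub]
    exact u.sub ⟨a, fun P p q => (b P p).trans (if_neg q)⟩) le_rfl one_pos fun P p _ => by
      rw [dsc_add, e P p]
      linarith [Int.ceil_lt_add_one (dsc (n + 1) Γ P)]
  obtain ⟨m, hm⟩ := CarZ.int z R
  rw [dsc_add, hm] at k
  rw [hm, Int.cast_le, Int.le_ceil_iff]
  linarith

/-- **LCT**: the threshold on a set of places which is closed under generalisation -/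
theorem lct_on (hK : FF K (n + 1)) (hΓ : Γ ∈ Car K) (hG : G ∈ Car K) (hΛ : Λ ∈ Car K)
    {S : Set (Pl K)} (up : ∀ Q ∈ S, ∀ P, CLe Λ Q P → P ∈ S) (k : ∀ Q ∈ S, -1 < dsc (n + 1) Γ Q)
    {R : Pl K} (hR : R ∈ S) (g : 0 < G R) : ∃ c : ℝ, 0 < c ∧
      (∀ Q ∈ S, -1 ≤ dsc (n + 1) (Γ + c • G) Q) ∧ ∃ P ∈ S, dsc (n + 1) (Γ + c • G) P = -1 := by
  obtain ⟨s, κ, T, h, l, t, c, d⟩ := exists_ls hK (finite_singleton R) (toFinite {Γ, G, Λ})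
    (forall_mem_insert.2 ⟨hΓ, forall_mem_insert.2 ⟨hG, forall_eq.2 hΛ⟩⟩)
  obtain ⟨P, ⟨p1, p2, p3⟩, p4⟩ := exists_min_image {P | P ∈ T ∧ P ∈ S ∧ 0 < G P}
    (fun P => (dsc (n + 1) Γ P + 1) / G P) (T.finite_toSet.subset fun _ h => h.1)
    ⟨R, t R rfl, hR, g⟩
  have c0 := div_pos (show 0 < dsc (n + 1) Γ P + 1 by linarith [k P p2]) p3
  refine ⟨_, c0, fun Q hQ => neg_le_iff_add_nonneg.2 (l.ge
    (c.sub ((d Γ (.inl rfl)).add ((d G (.inr (.inl rfl))).smul _))) le_rfl zero_le_one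
    fun U u v => ?_), P, p2, by rw [dsc_add_smul, div_mul_cancel₀ _ p3.ne']; ring⟩
  have m := up Q hQ U (l.cle (l.on U u) v (d Λ (.inr (.inr rfl))).1)
  rw [dsc_add_smul]
  rcases le_or_gt (G U) 0 with z | z
  · linarith [k U m, mul_nonpos_of_nonneg_of_nonpos c0.le z]
  · linarith [(le_div_iff₀ z).1 (p4 U ⟨u, m, z⟩)]

theorem lct (hK : FF K (n + 1)) (hΓ : Γ ∈ Car K) (hG : G ∈ Car K) (k : Klt (n + 1) Γ) {R : Pl K}
    (g : 0 < G R) : ∃ c : ℝ, 0 < c ∧ Lc (n + 1) (Γ + c • G) ∧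
      ∃ P, dsc (n + 1) (Γ + c • G) P = -1 :=
  let ⟨c, a, b, P, _, d⟩ := lct_on hK hΓ hG hΓ (S := univ) (fun _ _ _ _ => trivial)
    (fun Q _ => k Q) (mem_univ R) g
  ⟨c, a, fun Q => b Q trivial, P, d⟩

/-- the threshold at the centre of `x` on `V Λ` -/
theorem lct_at (hK : FF K (n + 1)) (hΓ : Γ ∈ Car K) (hG : G ∈ Car K) (hΛ : Λ ∈ Car K) {x R : Pl K}
    (k : ∀ Q, CLe Λ x Q → -1 < dsc (n + 1) Γ Q) (hR : CLe Λ x R) (g : 0 < G R) : ∃ c : ℝ, 0 < c ∧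
      (∀ Q, CLe Λ x Q → -1 ≤ dsc (n + 1) (Γ + c • G) Q) ∧
      ∃ P, CLe Λ x P ∧ dsc (n + 1) (Γ + c • G) P = -1 :=
  lct_on hK hΓ hG hΛ (S := {Q | CLe Λ x Q}) (fun _ a _ b => a.trans b) k hR g

/-- a divisor with small coefficients which has normal crossings with the data -/
theorem le_ld {κ : BD K} {T Y T' : Finset (Pl K)} {h : Pl K → BD K} (l : LS n A κ T' h)
    (e : ∀ P, P ∈ T' ↔ P ∈ T ∨ P ∈ Y) (d : Disjoint T Y) (u : Sup n A T (κ - Γ)) (g : Sup n A Y G)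
    {η : ℝ} (h0 : 0 ≤ η) (b : ∀ P ∈ Y, G P ≤ η) {Q : Pl K}
    (k : ∀ P ∈ T, 0 < h P Q → -1 ≤ dsc (n + 1) Γ P) : G Q ≤ η * (dsc (n + 1) Γ Q + 1) := by
  rw [l.exp_apply (g.mono fun P p => (e P).2 (.inr p)) Q,
    l.ld (u.mono fun P p => (e P).2 (.inl p)) Q, mul_add, Finset.mul_sum]
  refine le_add_of_nonneg_of_le (mul_nonneg h0 (sub_nonneg.2 (l.snc Q)))
    (Finset.sum_le_sum fun P p => ?_)
  have o := l.on P p
  rcases (l.nn o Q).eq_or_lt with z | z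
  · rw [← z]; simp
  rw [← mul_assoc]
  refine mul_le_mul_of_nonneg_right ?_ z.le
  rcases (e P).1 p with w | w
  · rw [g.2 P o (Finset.disjoint_left.1 d w)]
    exact mul_nonneg h0 (by linarith [k P w z])
  · have a := u.2 P o (Finset.disjoint_right.1 d w)
    have c := l.d0 o
    simp only [dsc, Pi.sub_apply] at a c ⊢
    rw [show cn K (n + 1) P - Γ P + 1 = 1 by linarith, mul_one]
    exact b P w

/-- **BER**: general members of semiample classes -/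
theorem ber (hK : FF K (n + 1)) (hT : T₀.Finite) (hB : B.Finite) (hc : ∀ β ∈ B, β ∈ Car K)
    (hA : Smp A) {η : ℝ} (e : 0 < η) : ∃ G, Rep A G ∧ (∀ P ∈ T₀, G P = 0) ∧
      ∀ Γ ∈ Submodule.span ℝ B, ∀ Q, (∀ P, (∀ Λ ∈ Submodule.span ℝ B, CLe Λ Q P) →
        -1 ≤ dsc (n + 1) Γ P) → G Q ≤ η * (dsc (n + 1) Γ Q + 1) :=
  let ⟨_, _, _, _, _, _, G, l, a, b, c, d, f, g, i, j⟩ := exists_ber hK hT hB hc hA e
  ⟨G, g, fun P p => i.2 P (l.on P ((a P).2 (.inl (c P p)))) (Finset.disjoint_left.1 b (c P p)),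
    fun _ hΓ _ k => le_ld l a b (d.sub (Sup.span l.smp f hΓ)) i e.le j fun P p q =>
      k P fun _ r => l.cle (l.on P ((a P).2 (.inl p))) q (Sup.span l.smp f r).1⟩

theorem ber_lc (hK : FF K (n + 1)) (hT : T₀.Finite) (hΓ : Γ ∈ Car K) (k : Lc (n + 1) Γ)
    (hA : Smp A) {η : ℝ} (e : 0 < η) : ∃ G, Rep A G ∧ (∀ P ∈ T₀, G P = 0) ∧
      ∀ Q, G Q ≤ η * (dsc (n + 1) Γ Q + 1) :=
  let ⟨G, a, b, c⟩ := ber hK hT (finite_singleton Γ) (forall_eq.2 hΓ) hA e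
  ⟨G, a, b, fun Q => c Γ (Submodule.subset_span rfl) Q fun P _ => k P⟩

theorem ber_klt (hK : FF K (n + 1)) (hT : T₀.Finite) (hΓ : Γ ∈ Car K) (k : Klt (n + 1) Γ)
    (hA : Smp A) : ∃ G, Rep A G ∧ (∀ P ∈ T₀, G P = 0) ∧ Klt (n + 1) (Γ + G) :=
  let ⟨G, a, b, c⟩ := ber_lc hK hT hΓ (fun P => (k P).le) hA one_half_pos
  ⟨G, a, b, fun Q => by
    rw [dsc_add]
    linarith [c Q, k Q]⟩

/-- a nef and big class is klt up to an ample one -/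
theorem kod_klt (hK : FF K (n + 1)) (hΓ : Γ ∈ Car K) (k : Klt (n + 1) Γ) (hA : Nef A) (bA : Big A)
    (hΛ : Λ ∈ Car K) : ∃ (ε : ℝ) (E : BD K), 0 < ε ∧ 0 ≤ E ∧ E ∈ Car K ∧ Klt (n + 1) (Γ + E) ∧
      Nef (A - E - ε • Λ) := by
  obtain ⟨δ, d, E, E0, hE⟩ := bA.exists_eff hΛ
  have cE : E ∈ Car K := Rep.car ⟨E0, hE⟩ (sub_mem hA.car ((Car K).smul_mem _ hΛ))
  obtain ⟨t, t0, ht⟩ := klt_open hK hΓ cE k
  have m0 := lt_min t0 one_pos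
  refine ⟨min t 1 * δ, min t 1 • E, mul_pos m0 d, smul_nonneg m0.le E0, (Car K).smul_mem _ cE,
    ht _ ((abs_of_pos m0).trans_le (min_le_left _ _)),
    (hA.smul (sub_nonneg.2 (min_le_right t 1))).congr ?_⟩
  have w : A - min t 1 • E - (min t 1 * δ) • Λ - (1 - min t 1) • A =
      -min t 1 • (E - (A - δ • Λ)) - (2 * (min t 1 * δ)) • Λ + (2 * (min t 1 * δ)) • Λ := by module
  rw [w, sub_add_cancel]
  exact (Prn K).smul_mem _ hE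

/-- one general member of a system -/
theorem ber1 (hK : FF K (n + 1)) (hT : T₀.Finite) (hB : B.Finite) (hc : ∀ β ∈ B, β ∈ Car K)
    {u : Finset K} (hu : Nz u) :
    ∃ (s : Finset K) (κ : BD K) (T Y T' : Finset (Pl K)) (h : Pl K → BD K) (f : K),
      LS n (mx s) κ T' h ∧ (∀ P, P ∈ T' ↔ P ∈ T ∨ P ∈ Y) ∧ Disjoint T Y ∧ (∀ P ∈ T₀, P ∈ T) ∧
      Sup n (mx s) T κ ∧ (∀ β ∈ B, Sup n (mx s) T β) ∧ f ∈ Submodule.span ℂ (u : Set K) ∧ f ≠ 0 ∧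
      Sup n (mx s) Y (dv f + mx u) ∧ ∀ P ∈ Y, (dv f + mx u) P = 1 := by
  classical
  obtain ⟨M₀, h₀⟩ := Bm.exists_mdl hK
  obtain ⟨M, m, U, hM, u1, u2, u3, u4, u5, u6⟩ := com h₀ (hB.insert (mx u))
    (forall_mem_insert.2 ⟨mx_mem_Car u, hc⟩) hT (KM M₀).support.finite_toSet
  obtain ⟨D, d1, d2, -, d3⟩ := u6 _ (mem_insert _ _)
  obtain ⟨c, f, f1, f0, f2, f3, f4⟩ := (tb.bert _ 0 K M hM U D u u1 u2 d1 (d3 (mx_mem_CarZ u))
    (fun f hf => (sec_bar hM).1 (d2 ▸ P287D.sec_of_mem hf)) (Nb.free_of_mx hM d1 hu d2)).exists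
  have fs : f ∈ Submodule.span ℂ (u : Set K) := f1 ▸ sum_mem fun a _ => by
    rw [← Algebra.smul_def]
    exact Submodule.smul_mem _ _ (Submodule.subset_span a.2)
  have eb : dv f + mx u = bar M (M.div f + D) := by rw [map_add, bar_div hM, d2]
  obtain ⟨H, s, hH, hs, -⟩ := exists_pol hM
  have g1 := u1.preimage (pl_inj (K := K)).injOn
  have g2 := (M.div f + D).support.finite_toSet.preimage (pl_inj (K := K)).injOn
  have k1 : ∀ P : Pl K, KM M P.toPlace ≠ 0 → P ∈ g1.toFinset := fun P hP => g1.mem_toFinset.2 (by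
    have p := KM_dv hM _ (Finsupp.mem_support_iff.2 hP)
    by_cases k : M₀.Pr P.toPlace
    · exact u5 _ (Finsupp.mem_support_iff.2 (by rwa [← KM_pr h₀ k, KM_pr hM p])) p
    · exact u3 ⟨p, k⟩)
  have k2 : ∀ β ∈ B, Sup n (mx s) g1.toFinset β := fun β hβ => by
    obtain ⟨E, -, rfl, b, -⟩ := u6 β (mem_insert_of_mem _ hβ)
    exact hs ▸ sup_of hM hH fun P hP => g1.mem_toFinset.2 (b (Finsupp.mem_support_iff.2 hP))
  refine ⟨s, _, g1.toFinset, g2.toFinset, g1.toFinset ∪ g2.toFinset, _, f,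
    hs ▸ ls_of hM hH f4 fun P hP => (Finset.mem_union.1 hP).imp g1.mem_toFinset.1 g2.mem_toFinset.1,
    fun _ => Finset.mem_union, Finset.disjoint_left.2 fun P a b =>
      Finsupp.mem_support_iff.1 (g2.mem_toFinset.1 b) (f3 _ (g1.mem_toFinset.1 a)),
    fun P hP => g1.mem_toFinset.2 (u4 P hP), hs ▸ sup_of hM hH k1, k2, fs, f0,
    eb ▸ hs ▸ sup_of hM hH fun P hP => g2.mem_toFinset.2 (Finsupp.mem_support_iff.2 hP),
    fun P hP => ?_⟩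
  have p := g2.mem_toFinset.1 hP
  have v := (congrFun eb P).trans (bar_pr hM (f4.1 _ (.inr p)) _)
  have a := f2 P.toPlace
  have b := Finsupp.mem_support_iff.1 p
  have c : (0 : ℝ) ≤ _ := (sec_of_span fs).resolve_left f0 P
  obtain ⟨z, hz⟩ := CarZ.int (add_mem (dv_mem_CarZ f) (mx_mem_CarZ u)) P
  rw [← v] at a b
  rw [hz] at a b c ⊢
  have a' : z ≤ 1 := by exact_mod_cast a
  have b' : z ≠ 0 := by exact_mod_cast b
  have c' : 0 ≤ z := by exact_mod_cast c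
  exact_mod_cast (show z = 1 by omega)

theorem ber1_lc (hK : FF K (n + 1)) (hT : T₀.Finite) (hΓ : Γ ∈ Car K) (k : Lc (n + 1) Γ)
    {u : Finset K} (hu : Nz u) : ∃ f ∈ Submodule.span ℂ (u : Set K), f ≠ 0 ∧
      (∀ P ∈ T₀, (dv f + mx u) P = 0) ∧ Lc (n + 1) (Γ + (dv f + mx u)) :=
  let ⟨_, _, _, _, _, _, f, l, a, b, c, d, e, g, g0, i, j⟩ :=
    ber1 hK hT (finite_singleton Γ) (forall_eq.2 hΓ) hu
  ⟨f, g, g0, fun P p => i.2 P (l.on P ((a P).2 (.inl (c P p)))) (Finset.disjoint_left.1 b (c P p)),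
    fun Q => by
      have := le_ld l a b (d.sub (e Γ rfl)) i zero_le_one (fun P p => (j P p).le) (Q := Q)
        fun P _ _ => k P
      rw [dsc_add]
      linarith⟩

end Pr

end Vale.Agent.P287D
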