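import Vale.Agent.P287D.Va.Dsc
import Vale.Agent.P287D.Ba.Cn
import Vale.Agent.P287D.Ba.I
import Vale.Agent.P287D.Ba.Nb

/-!
# P287D: log smooth models in the language of b-divisors
-/

set_option linter.all false

open Set
open Vale.Agent.P297 (Place)
open Vale.Agent.P277Z Vale.Agent.P277Z.FI Vale.Agent.P277Z.F5

noncomputable section

namespace Vale.Agent.P287D

variable {n : ℕ} {K : Type} [Field K] [Algebra ℂ K]

/-- `V A` is smooth with the canonical divisor `κ`, `h P` is the pull back of the prime divisor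
`P`, and `T` has normal crossings -/
structure LS (n : ℕ) (A κ : BD K) (T : Finset (Pl K)) (h : Pl K → BD K) : Prop where
  term : Term n A κ
  kz : κ ∈ CarZ K
  one : ∀ Q, ¬ On n A Q → 1 ≤ dsc (n + 1) κ Q
  on : ∀ P ∈ T, On n A P
  hz : ∀ P, h P ∈ CarZ K
  hull : ∀ P, On n A P → Hull n A P.δ (h P)
  hart : ∀ β, Dsc A β → (∀ P, On n A P → 0 ≤ β P) → 0 ≤ β
  snc : ∀ Q, ∑ P ∈ T, h P Q ≤ dsc (n + 1) κ Q + 1

/-- `β` is a divisor of `V A` with support in `T` -/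
def Sup (n : ℕ) (A : BD K) (T : Finset (Pl K)) (β : BD K) : Prop :=
  Dsc A β ∧ ∀ P, On n A P → P ∉ T → β P = 0

namespace Pr

open Ba

section mdl

variable {M : Mdl (n + 1) 0 K} {H D : P277Z.Div K} {U : Set (Place K)} {β : BD K}

/-- pairs with normal crossings are log canonical -/
theorem lc_bar {M : Mdl n 0 K} (hM : M.Proj) (hU : M.Snc U) {B : P277Z.Div K} (hB : Bd1 U B)
    (Q : Pl K) : bar M B Q ≤ dsc n (bar M (KM M)) Q + 1 := by
  obtain ⟨M', ⟨m⟩, hM', hQ⟩ := Bm.plm1 hM Q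
  have k := LrH.lc box (hloc hM) (hloc hM') (hbir hM hM' m) hU hB (KM_can hM) (KM_can hM') Q.toPlace
  rw [← disc_mod hM hM' hQ, ← bar_pr hM' hQ, bar_pull hM hM' m] at k
  exact k

theorem dsc_bar {M : Mdl n 0 K} (hM : M.Proj) (hH : M.Amp H) (dH : M.Dv H) (D : P277Z.Div K) :
    Dsc (bar M H) (bar M D) := by
  have k : ∀ D, ∃ ε : ℝ, 0 < ε ∧ Smp (bar M H + ε • bar M D) := fun D => by
    obtain ⟨ε, e, a⟩ := (hpos hM).opn H (M.tr D) hH
    exact ⟨ε, e, by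
      rw [← bar_tr hM D, ← map_smul, ← map_add]
      exact Nb.smp_amp hM (dv_add dH (FI.dv_smul (dv_tr D) ε)) a⟩
  obtain ⟨a, a0, ha⟩ := k D
  obtain ⟨b, b0, hb⟩ := k (-D)
  have s := Nb.smp_amp hM dH hH
  refine ⟨min a b, lt_min a0 b0, s.seg ha (lt_min a0 b0).le (min_le_left _ _), ?_⟩
  simpa [sub_eq_add_neg] using s.seg hb (lt_min a0 b0).le (min_le_right _ _)

theorem ds_of_dsc {M : Mdl n 0 K} (hM : M.Proj) (dH : M.Dv H) (h : Dsc (bar M H) β) :
    ∃ D, β = bar M D := by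
  obtain ⟨ε, e, ⟨l, hl, a⟩, ⟨l', hl', b⟩⟩ := h
  have k := (Nb.smp_desc hM (dv_add dH dH) (add_nonneg hl hl')
    (by rw [cmb_add, ← a, ← b, map_add]; abel)).2
  refine ⟨ε⁻¹ • (∑ s ∈ l.support, l s • sys M s - H), ?_⟩
  rw [map_smul, map_sub, map_sum, Finset.sum_congr rfl fun s hs => by
    rw [map_smul, ← k s (Finsupp.mem_support_iff.2 (add_pos_of_pos_of_nonneg
      ((hl s).lt_of_ne (Finsupp.mem_support_iff.1 hs).symm) (hl' s)).ne')],
    ← cmb_sum, ← a, add_sub_cancel_left, inv_smul_smul₀ e.ne']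

theorem sup_of (hM : M.Proj) (hH : Pol M H) {T : Finset (Pl K)}
    (h : ∀ P : Pl K, D P.toPlace ≠ 0 → P ∈ T) : Sup n (bar M H) T (bar M D) :=
  ⟨dsc_bar hM hH.amp hH.dv D, fun P a b => by
    rw [bar_pr hM (pr_of_on hM a)]
    exact not_not.1 (mt (h P) b)⟩

theorem ls_of (hM : M.Proj) (hH : Pol M H) (sU : M.Snc U) {T : Finset (Pl K)}
    (hT : ∀ P ∈ T, P.toPlace ∈ U) :
    LS n (bar M H) (bar M (KM M)) T fun P => bar M (Finsupp.single P.toPlace 1) := by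
  classical
  have o := fun P => on_amp hM (P := P) hH.amp hH.dv
  have d := dsc_bar hM hH.amp hH.dv
  have one : ∀ Q, ¬ On n (bar M H) Q → 1 ≤ dsc (n + 1) (bar M (KM M)) Q := fun Q hQ =>
    disc_one hM (mt (o Q).2 hQ)
  refine ⟨⟨Nb.smp_amp hM hH.dv hH.amp, big_of_big hM (.of_amp hH.dv hH.amp),
    ⟨d _, fun P hP => (bar_pr hM ((o P).1 hP) _).trans (KM_pr hM ((o P).1 hP)).symm⟩,
    fun Q hQ => one_pos.trans_le (one Q hQ)⟩, bar_carZ hM (KM_int hM), one,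
    fun P hP => (o P).2 (sU.1 _ (hT P hP)), fun P => bar_carZ hM (IsInt.single _),
    fun P hP => ⟨d _, fun Q hQ => (bar_pr hM ((o Q).1 hQ) _).trans
      ((trc_δ ((o P).1 hP)).2 Q ((o Q).1 hQ)).symm⟩, fun β a b => ?_, fun Q => ?_⟩
  · obtain ⟨D, rfl⟩ := ds_of_dsc hM hH.dv a
    exact bar_nonneg' hM ((forall_pr hM).2 fun P hP => bar_pr hM hP D ▸ b P ((o P).2 hP))
  · have e : ∑ P ∈ T, Finsupp.single P.toPlace (1 : ℝ) =
        ∑ P ∈ T.image Pl.toPlace, Finsupp.single P 1 :=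
      (Finset.sum_image (f := fun P => Finsupp.single P (1 : ℝ)) pl_inj.injOn).symm
    rw [← Finset.sum_apply, ← map_sum, e]
    refine lc_bar hM sU ⟨fun R hR => ?_, fun R => ?_⟩ Q
    · have := Finsupp.mem_support_iff.1 hR
      rw [Finsupp.finsetSum_apply] at this
      obtain ⟨P, hP, k⟩ := Finset.exists_ne_zero_of_sum_ne_zero this
      obtain ⟨P', hP', rfl⟩ := Finset.mem_image.1 hP
      exact (Finsupp.single_apply_ne_zero.1 k).1 ▸ hT P' hP'
    · simp only [Finsupp.finsetSum_apply, Finsupp.single_apply, Finset.sum_ite_eq']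
      split_ifs <;> simp

/-- general members with small coefficients -/
def Gn (M : Mdl n 0 K) (β : BD K) : Prop := ∀ (U : Set (Place K)) (η : ℝ), U.Finite → M.Snc U →
  0 < η → ∃ (Y : Set (Place K)) (G : P277Z.Div K), Y.Finite ∧ M.Snc (U ∪ Y) ∧ Disjoint Y U ∧
    Rep β (bar M G) ∧ (G.support : Set (Place K)) ⊆ Y ∧ ∀ P, G P ≤ η

theorem Gn.zero {M : Mdl n 0 K} : Gn M 0 := fun U η _ a b =>
  ⟨∅, 0, finite_empty, by rwa [union_empty], empty_disjoint _, by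
    rw [map_zero]; exact .refl le_rfl, by simp, fun _ => b.le⟩

theorem Gn.comb {M : Mdl n 0 K} {β γ : BD K} {η : ℝ} {U Y Y' : Set (Place K)}
    {G G' : P277Z.Div K} (e : 0 < η) (a2 : Disjoint Y U) (a3 : Rep β (bar M G))
    (a4 : (G.support : Set (Place K)) ⊆ Y) (a5 : ∀ P, G P ≤ η) (b1 : M.Snc (U ∪ Y ∪ Y'))
    (b2 : Disjoint Y' (U ∪ Y)) (b3 : Rep γ (bar M G')) (b4 : (G'.support : Set (Place K)) ⊆ Y')
    (b5 : ∀ P, G' P ≤ η) : M.Snc (U ∪ (Y ∪ Y')) ∧ Disjoint (Y ∪ Y') U ∧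
      Rep (β + γ) (bar M (G + G')) ∧ ((G + G').support : Set (Place K)) ⊆ Y ∪ Y' ∧
      ∀ P, (G + G') P ≤ η := by
  classical
  refine ⟨union_assoc U Y Y' ▸ b1, disjoint_union_left.2 ⟨a2, (disjoint_union_right.1 b2).1⟩,
    map_add (bar M) G G' ▸ a3.add b3, fun P hP =>
      (Finset.mem_union.1 (Finsupp.support_add hP)).imp (@a4 P) (@b4 P), fun P => ?_⟩
  rw [Finsupp.add_apply]
  by_cases k : G' P = 0
  · rw [k, add_zero]; exact a5 P
  · rw [not_not.1 fun z => disjoint_left.1 b2 (b4 (Finsupp.mem_support_iff.2 k))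
      (Or.inr (a4 (Finsupp.mem_support_iff.2 z))), zero_add]
    exact b5 P

theorem Gn.add {M : Mdl n 0 K} {β γ : BD K} (h : Gn M β) (h' : Gn M γ) : Gn M (β + γ) :=
  fun U η a b e => by
    obtain ⟨Y, G, a0, a1, a2, a3, a4, a5⟩ := h U η a b e
    obtain ⟨Y', G', b0, b1, b2, b3, b4, b5⟩ := h' (U ∪ Y) η (a.union a0) a1 e
    exact ⟨_, _, a0.union b0, Gn.comb e a2 a3 a4 a5 b1 b2 b3 b4 b5⟩

theorem gn_free {M : Mdl n 0 K} (hM : M.Proj) (h1 : M.Dv D) (h2 : IsInt D) (h3 : ∀ x, M.Free D x)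
    {c : ℝ} (hc : 0 ≤ c) : Gn M (c • bar M D) := fun U η a b e => by
  classical
  have k : ∀ (m : ℕ) (c : ℝ), 0 ≤ c → c ≤ η → ∃ (Y : Set (Place K)) (G : P277Z.Div K), Y.Finite ∧
      M.Snc (U ∪ Y) ∧ Disjoint Y U ∧ Rep ((m : ℝ) • c • bar M D) (bar M G) ∧
      (G.support : Set (Place K)) ⊆ Y ∧ ∀ P, G P ≤ η := fun m c c0 c1 => by
    induction m with
    | zero => simpa only [Nat.cast_zero, zero_smul] using Gn.zero U η a b e
    | succ m ih =>
      obtain ⟨Y, G, a0, a1, a2, a3, a4, a5⟩ := ih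
      obtain ⟨f, Y', f0, b0, b1, -, b2⟩ := (pc hM).cut h1 h2 h3 (a.union a0) a1 finite_empty
      have v : ∀ P, (M.div f + D) P = if P ∈ Y' then 1 else 0 := fun P => by
        simp only [b0, Finsupp.finsetSum_apply, Finsupp.single_apply, Finset.sum_ite_eq']
      refine ⟨_, G + c • (M.div f + D), a0.union Y'.finite_toSet, ?_⟩
      rw [Nat.cast_succ, add_smul, one_smul]
      refine Gn.comb e a2 a3 a4 a5 b2 b1 ?_ (fun P hP => ?_) fun P => ?_
      · rw [map_smul]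
        refine Rep.smul ⟨bar_nonneg hM fun P => ?_, ?_⟩ c0
        · rw [v]; split_ifs <;> simp
        · rw [map_add, bar_div hM, add_sub_cancel_right]; exact dv_mem_Prn f
      · by_contra z
        exact Finsupp.mem_support_iff.1 hP (by rw [Finsupp.smul_apply, v, if_neg (mt Finset.mem_coe.2 z), smul_zero])
      · rw [Finsupp.smul_apply, v]
        split_ifs
        · simpa using c1
        · simpa using e.le
  obtain ⟨m, hm⟩ := exists_nat_gt (c / η)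
  have m0 : (0 : ℝ) < m := (div_nonneg hc e.le).trans_lt hm
  have := k m (c / m) (div_nonneg hc m0.le) ((div_le_iff₀' m0).2 ((div_lt_iff₀ e).1 hm).le)
  rwa [smul_smul, mul_div_cancel₀ _ m0.ne'] at this

theorem gn_smp {M : Mdl n 0 K} (hM : M.Proj) (hD : M.Dv D) (h : Smp (bar M D)) :
    Gn M (bar M D) := by
  obtain ⟨l, hl, e⟩ := h
  have k := (Nb.smp_desc hM hD hl e).2
  rw [e, cmb_sum]
  exact Finset.sum_induction _ (Gn M) (fun _ _ => Gn.add) Gn.zero fun s hs =>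
    k s hs ▸ gn_free hM (dv_sys s) (int_sys hM s) (Nb.free_sys hM (k s hs)) (hl s)

end mdl

/-- **log resolution, with a general member of a semiample class** -/
theorem exists_ber (hK : FF K (n + 1)) {T₀ : Set (Pl K)} (hT : T₀.Finite) {B : Set (BD K)}
    (hB : B.Finite) (hc : ∀ β ∈ B, β ∈ Car K) {A : BD K} (hA : Smp A) {η : ℝ} (e : 0 < η) :
    ∃ (s : Finset K) (κ : BD K) (T Y T' : Finset (Pl K)) (h : Pl K → BD K) (G : BD K),
      LS n (mx s) κ T' h ∧ (∀ P, P ∈ T' ↔ P ∈ T ∨ P ∈ Y) ∧ Disjoint T Y ∧ (∀ P ∈ T₀, P ∈ T) ∧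
      Sup n (mx s) T κ ∧ (∀ β ∈ B, Sup n (mx s) T β) ∧ Rep A G ∧ Sup n (mx s) Y G ∧
      ∀ P ∈ Y, G P ≤ η := by
  classical
  obtain ⟨M₀, h₀⟩ := Bm.exists_mdl hK
  obtain ⟨M, m, U, hM, u1, u2, u3, u4, u5, u6⟩ := com h₀ (hB.insert A)
    (forall_mem_insert.2 ⟨hA.car, hc⟩) hT (KM M₀).support.finite_toSet
  obtain ⟨D, d1, d2, -⟩ := u6 A (mem_insert _ _)
  obtain ⟨Y, G, y1, y2, y3, y4, y5, y6⟩ := gn_smp hM d1 (d2 ▸ hA) U η u1 u2 e
  obtain ⟨H, s, hH, hs, -⟩ := exists_pol hM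
  have f1 := u1.preimage (pl_inj (K := K)).injOn
  have f2 := y1.preimage (pl_inj (K := K)).injOn
  have k1 : ∀ P : Pl K, KM M P.toPlace ≠ 0 → P ∈ f1.toFinset := fun P hP => f1.mem_toFinset.2 (by
    have p := KM_dv hM _ (Finsupp.mem_support_iff.2 hP)
    by_cases k : M₀.Pr P.toPlace
    · exact u5 _ (Finsupp.mem_support_iff.2 (by rwa [← KM_pr h₀ k, KM_pr hM p])) p
    · exact u3 ⟨p, k⟩)
  have k2 : ∀ β ∈ B, Sup n (mx s) f1.toFinset β := fun β hβ => by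
    obtain ⟨E, -, rfl, b, -⟩ := u6 β (mem_insert_of_mem _ hβ)
    exact hs ▸ sup_of hM hH fun P hP => f1.mem_toFinset.2 (b (Finsupp.mem_support_iff.2 hP))
  exact ⟨s, _, f1.toFinset, f2.toFinset, f1.toFinset ∪ f2.toFinset, _, bar M G,
    hs ▸ ls_of hM hH y2 fun P hP => (Finset.mem_union.1 hP).imp f1.mem_toFinset.1 f2.mem_toFinset.1,
    fun _ => Finset.mem_union, Finset.disjoint_left.2 fun P a b =>
      disjoint_left.1 y3 (f2.mem_toFinset.1 b) (f1.mem_toFinset.1 a),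
    fun P hP => f1.mem_toFinset.2 (u4 P hP), hs ▸ sup_of hM hH k1, k2, d2 ▸ y4,
    hs ▸ sup_of hM hH fun P hP => f2.mem_toFinset.2 (y5 (Finsupp.mem_support_iff.2 hP)),
    fun P hP => (bar_pr hM (y2.1 _ (Or.inr (f2.mem_toFinset.1 hP))) G).trans_le (y6 _)⟩

end Pr

namespace Sup

variable {A β γ : BD K} {T T' : Finset (Pl K)}

theorem mono (h : Sup n A T β) (e : ∀ P ∈ T, P ∈ T') : Sup n A T' β :=
  ⟨h.1, fun P a b => h.2 P a (mt (e P) b)⟩

theorem add (h : Sup n A T β) (h' : Sup n A T γ) : Sup n A T (β + γ) :=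
  ⟨h.1.add h'.1, fun P a b => by rw [Pi.add_apply, h.2 P a b, h'.2 P a b, add_zero]⟩

theorem smul (h : Sup n A T β) (c : ℝ) : Sup n A T (c • β) :=
  ⟨h.1.smul c, fun P a b => by rw [Pi.smul_apply, h.2 P a b, smul_zero]⟩

theorem sub (h : Sup n A T β) (h' : Sup n A T γ) : Sup n A T (β - γ) :=
  ⟨h.1.sub h'.1, fun P a b => by rw [Pi.sub_apply, h.2 P a b, h'.2 P a b, sub_zero]⟩

theorem span (hA : Smp A) {B : Set (BD K)} (h : ∀ β ∈ B, Sup n A T β)
    (e : β ∈ Submodule.span ℝ B) : Sup n A T β := by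
  induction e using Submodule.span_induction with
  | mem x a => exact h x a
  | zero => exact ⟨.zero hA, fun _ _ _ => rfl⟩
  | add _ _ _ _ a b => exact a.add b
  | smul c _ _ a => exact a.smul c

end Sup

namespace LS

variable {A κ β Γ Λ : BD K} {T T' : Finset (Pl K)} {h : Pl K → BD K} {P Q : Pl K}
  (l : LS n A κ T h)

include l

theorem smp : Smp A := l.term.smp

theorem big : Big A := l.term.big

theorem nn (hP : On n A P) : 0 ≤ h P :=
  l.hart _ (l.hull P hP).1 fun Q hQ => (l.hull P hP).2 Q hQ ▸ P.δ_nonneg Q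

theorem d0 (hP : On n A P) : dsc (n + 1) κ P = 0 := sub_eq_zero.2 (l.term.hull.2 P hP).symm

theorem dn (Q : Pl K) : 0 ≤ dsc (n + 1) κ Q := by
  by_cases k : On n A Q
  exacts [(l.d0 k).ge, (l.term.pos Q k).le]

theorem qf : QF n A := fun P hP => ⟨h P, CarZ.carQ (l.hz P), l.hull P hP⟩

theorem mono (e : T' ⊆ T) : LS n A κ T' h :=
  ⟨l.term, l.kz, l.one, fun P hP => l.on P (e hP), l.hz, l.hull, l.hart, fun Q =>
    (Finset.sum_le_sum_of_subset_of_nonneg e fun P a _ => l.nn (l.on P a) Q).trans (l.snc Q)⟩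

theorem hull_sum (c : Pl K → ℝ) : Dsc A (∑ P ∈ T, c P • h P) ∧
    ∀ Q, On n A Q → (∑ P ∈ T, c P • h P) Q = open Classical in if Q ∈ T then c Q else 0 := by
  classical
  refine ⟨Dsc.sum l.smp T fun P hP => (l.hull P (l.on P hP)).1.smul _, fun Q hQ => ?_⟩
  rw [Finset.sum_apply, Finset.sum_congr rfl fun P hP => show _ = if Q = P then c P else 0 by
    rw [Pi.smul_apply, (l.hull P (l.on P hP)).2 Q hQ, Pl.δ]; split_ifs <;> simp]
  exact Finset.sum_ite_eq T Q c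

theorem exp (s : Sup n A T β) : β = ∑ P ∈ T, β P • h P := by
  obtain ⟨a, b⟩ := l.hull_sum β
  have e : ∀ Q, On n A Q → (∑ P ∈ T, β P • h P) Q = β Q := fun Q hQ => by
    rw [b Q hQ]
    split_ifs with k
    exacts [rfl, (s.2 Q hQ k).symm]
  exact le_antisymm
    (sub_nonneg.1 (l.hart _ (a.sub s.1) fun Q hQ => sub_nonneg.2 (e Q hQ).ge))
    (sub_nonneg.1 (l.hart _ (s.1.sub a) fun Q hQ => sub_nonneg.2 (e Q hQ).le))

theorem exp_apply (s : Sup n A T β) (Q : Pl K) : β Q = ∑ P ∈ T, β P * h P Q :=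
  (congrFun (l.exp s) Q).trans (Finset.sum_apply _ _ _)

theorem one_le (k : 0 < h P Q) : 1 ≤ h P Q := by
  obtain ⟨z, hz⟩ := CarZ.int (l.hz P) Q
  rw [hz] at k ⊢
  exact_mod_cast k

/-- the formula for the log discrepancy -/
theorem ld (s : Sup n A T (κ - Γ)) (Q : Pl K) : dsc (n + 1) Γ Q + 1 =
    (dsc (n + 1) κ Q + 1 - ∑ P ∈ T, h P Q) + ∑ P ∈ T, (dsc (n + 1) Γ P + 1) * h P Q := by
  have e : ∀ R, dsc (n + 1) Γ R = dsc (n + 1) κ R + (κ - Γ) R := fun R => by simp [dsc]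
  rw [e Q, l.exp_apply s Q, Finset.sum_congr rfl fun P hP => show (dsc (n + 1) Γ P + 1) * h P Q =
    (κ - Γ) P * h P Q + h P Q by rw [e P, l.d0 (l.on P hP)]; ring, Finset.sum_add_distrib]
  ring

/-- off the primes of the model -/
theorem le_smul (hβ : Dsc A β) (h0 : 0 ≤ β) (hP : On n A P) : β P • h P ≤ β :=
  sub_nonneg.1 (l.hart _ (hβ.sub ((l.hull P hP).1.smul _)) fun Q hQ => by
    rw [Pi.sub_apply, Pi.smul_apply, (l.hull P hP).2 Q hQ]
    by_cases k : Q = P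
    · simp [k, P.δ_self]
    · simpa [Pl.δ_ne k] using h0 Q)

theorem cle (hP : On n A P) (k : 0 < h P Q) (hΛ : Dsc A Λ) : CLe Λ Q P := fun G r g =>
  (mul_pos g k).trans_le (l.le_smul (hΛ.congr r.2) r.1 hP Q)

/-- log discrepancies are bounded below by those of the primes through the centre -/
theorem ge (s : Sup n A T (κ - Γ)) {a : ℝ} (a0 : 0 ≤ a) (a1 : a ≤ 1)
    (k : ∀ P ∈ T, 0 < h P Q → a ≤ dsc (n + 1) Γ P + 1) : a ≤ dsc (n + 1) Γ Q + 1 := by
  have nn : ∀ P ∈ T, 0 ≤ (dsc (n + 1) Γ P + 1) * h P Q := fun P hP =>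
    (l.nn (l.on P hP) Q).eq_or_lt.elim (fun z => by rw [← z]; simp) fun z =>
      mul_nonneg (a0.trans (k P hP z)) z.le
  rw [l.ld s Q]
  by_cases z : ∃ P ∈ T, 0 < h P Q
  · obtain ⟨P, hP, z⟩ := z
    have b := Finset.single_le_sum nn hP
    have c := l.snc Q
    nlinarith [k P hP z, l.one_le z]
  · rw [Finset.sum_eq_zero fun P hP =>
      le_antisymm (not_lt.1 fun w => z ⟨P, hP, w⟩) (l.nn (l.on P hP) Q)]
    linarith [Finset.sum_nonneg nn, l.dn Q]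

theorem gt (s : Sup n A T (κ - Γ)) {a : ℝ} (a0 : 0 ≤ a) (a1 : a < 1)
    (k : ∀ P ∈ T, 0 < h P Q → a < dsc (n + 1) Γ P + 1) : a < dsc (n + 1) Γ Q + 1 := by
  classical
  obtain ⟨b, b1, b2⟩ := (insert 1 ((T.filter (0 < h · Q)).image (dsc (n + 1) Γ · + 1))).exists_min_image
    id (Finset.insert_nonempty _ _)
  have ab : a < b := by
    rcases Finset.mem_insert.1 b1 with rfl | z
    · exact a1
    · obtain ⟨P, hP, rfl⟩ := Finset.mem_image.1 z
      exact k P (Finset.mem_filter.1 hP).1 (Finset.mem_filter.1 hP).2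
  exact ab.trans_le (l.ge s (a0.trans ab.le) (b2 1 (Finset.mem_insert_self _ _)) fun P p q =>
    b2 _ (Finset.mem_insert_of_mem (Finset.mem_image_of_mem _ (Finset.mem_filter.2 ⟨p, q⟩))))

end LS

/-- **log resolution** -/
theorem exists_ls (hK : FF K (n + 1)) {T₀ : Set (Pl K)} (hT : T₀.Finite) {B : Set (BD K)}
    (hB : B.Finite) (hc : ∀ β ∈ B, β ∈ Car K) :
    ∃ (s : Finset K) (κ : BD K) (T : Finset (Pl K)) (h : Pl K → BD K), LS n (mx s) κ T h ∧
      (∀ P ∈ T₀, P ∈ T) ∧ Sup n (mx s) T κ ∧ ∀ β ∈ B, Sup n (mx s) T β :=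
  let ⟨s, κ, T, _, _, h, _, a, b, _, c, d, e, _⟩ := Pr.exists_ber hK hT hB hc Smp.zero one_pos
  ⟨s, κ, T, h, a.mono fun P hP => (b P).2 (.inl hP), c, d, e⟩

end Vale.Agent.P287D
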