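import Vale.Agent.P287D.Pr.Lr
import Vale.Agent.P287D.Z.Zar
import Vale.Agent.P287D.Fg.Fgu

/-!
# P287D: non-vanishing, base point freeness and the criterion of Kleiman for klt pairs
-/

set_option linter.all false

open Set Filter Topology

noncomputable section

namespace Vale.Agent.P287D.Pr

variable {n : ℕ} {K : Type} [Field K] [Algebra ℂ K] {Λ Λ₁ Γ β γ A : BD K}

theorem zarh : ZARH := zarh_of Ba.mod neg' (Ba.Fg.fgu res')

/-- a real Cartier divisor of `V Λ` is a combination of systems which descend -/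
theorem mem_span (h : Dsc Λ β) : β ∈ Submodule.span ℝ {γ | ∃ s, γ = mx s ∧ Dsc Λ (mx s)} := by
  have hΛ := h.smp
  have k : ∀ a b, Smp a → Smp b → a + b = (2 : ℝ) • Λ →
      a ∈ Submodule.span ℝ {γ | ∃ s, γ = mx s ∧ Dsc Λ (mx s)} := by
    classical
    rintro _ b ⟨l, hl, rfl⟩ hb e
    rw [cmb_sum]
    refine sum_mem fun s hs => Submodule.smul_mem _ _ (Submodule.subset_span ⟨s, rfl,
      .of_smp hΛ (smp_mx s) (half_pos ((hl s).lt_of_ne (Finsupp.mem_support_iff.1 hs).symm))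
        (.of_smul two_pos ?_)⟩)
    rw [smul_sub, ← e, smul_smul, mul_div_cancel₀ _ two_ne_zero, cmb_sum,
      ← Finset.add_sum_erase _ _ hs, add_assoc, add_sub_cancel_left]
    exact (Smp.sum _ fun u _ => (smp_mx u).smul (hl u)).add hb
  obtain ⟨ε, e, a, b⟩ := h
  have w : β = (2 * ε)⁻¹ • (Λ + ε • β - (Λ - ε • β)) := by
    rw [add_sub_sub_cancel, ← add_smul, ← two_mul, inv_smul_smul₀ (by positivity)]
  rw [w]
  exact Submodule.smul_mem _ _ (sub_mem (k _ _ a b (by module)) (k _ _ b a (by module)))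

/-- rational approximation -/
theorem mem_hull (h : Dsc Λ β) {η : ℝ} (e : 0 < η) :
    β ∈ convexHull ℝ {D | CarQ D ∧ Dsc Λ D ∧ Smp (η • Λ + (D - β)) ∧ Smp (η • Λ - (D - β))} := by
  have hΛ := h.smp
  obtain ⟨l, hl, rfl⟩ := (Finsupp.mem_span_iff_linearCombination _ _ _).1 (mem_span h)
  clear h
  induction l using Finsupp.induction_linear generalizing η with
  | zero => exact subset_convexHull _ _ ⟨by simpa using CarQ.zero, by simpa using Dsc.zero hΛ,
      by simpa using hΛ.smul e.le, by simpa using hΛ.smul e.le⟩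
  | add l l' a b =>
    rw [map_add]
    have := add_mem_add (a (half_pos e)) (b (half_pos e))
    rw [← convexHull_add] at this
    refine convexHull_mono ?_ this
    rintro _ ⟨D, ⟨a1, a2, a3, a4⟩, E, ⟨b1, b2, b3, b4⟩, rfl⟩
    refine ⟨a1.add b1, a2.add b2, ?_, ?_⟩
    · rw [← add_halves η, add_smul, add_sub_add_comm, add_add_add_comm]
      exact a3.add b3
    · rw [← add_halves η, add_smul, add_sub_add_comm, add_sub_add_comm]
      exact a4.add b4
  | single g c =>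
    obtain ⟨_, s, rfl, d⟩ := g
    obtain ⟨δ, d0, hd⟩ := (d.smul_left e).exists_abs
    have m : ∀ q : ℚ, |q - c| ≤ δ → (q : ℝ) • mx s ∈ {D | CarQ D ∧ Dsc Λ D ∧
        Smp (η • Λ + (D - c • mx s)) ∧ Smp (η • Λ - (D - c • mx s))} := fun q hq =>
      ⟨(carQ_mx s).qsmul q, d.smul _, sub_smul (q : ℝ) c (mx s) ▸ hd _ hq, by
        rw [← sub_smul, sub_eq_add_neg, ← neg_smul]
        exact hd _ (by rwa [abs_neg])⟩
    obtain ⟨p, p1, p2⟩ := exists_rat_btwn (sub_lt_self c d0)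
    obtain ⟨q, q1, q2⟩ := exists_rat_btwn (lt_add_of_pos_right c d0)
    rw [Finsupp.linearCombination_single]
    refine segment_subset_convexHull (m p (abs_le.2 ⟨by linarith, by linarith⟩))
      (m q (abs_le.2 ⟨by linarith, by linarith⟩)) ⟨(q - c) / (q - p), (c - p) / (q - p),
        div_nonneg (by linarith) (by linarith), div_nonneg (by linarith) (by linarith), ?_, ?_⟩
    · rw [← add_div, sub_add_sub_cancel, div_self (by linarith)]
    · have : (q : ℝ) - p ≠ 0 := by linarith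
      rw [smul_smul, smul_smul, ← add_smul]
      congr 1
      field_simp
      ring

/-- a real adjoint class lies in the cone of rational ones -/
theorem adj_real (hK : FF K (n + 1)) (bΛ : Big Λ) (h : Dsc Λ β) (hΓ : Γ ∈ Car K)
    (k : Klt (n + 1) Γ) (b : Bdy n Λ Γ) (h1 : Nef (β - Γ)) (h2 : Big (β - Γ)) :
    ∃ (ι : Type) (_ : Fintype ι) (D : ι → BD K) (H : Finset (ι → ℤ)) (a e : ι → ℝ), Zar D H ∧
      (∀ a, 0 ≤ a → Psef (lc D a) → Eff (lc D a)) ∧ 0 ≤ a ∧ 0 ≤ e ∧ lc D a = β ∧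
      AmpOn Λ (lc D e) := by
  classical
  have hΛ := h.smp
  obtain ⟨ε, E, e0, E0, cE, kE, nE⟩ := kod_klt hK hΓ k h1 h2 hΛ.car
  obtain ⟨ι, _, w, z, w0, -, hz, hw⟩ := mem_convexHull_iff_exists_fintype.1 (mem_hull h (half_pos e0))
  obtain ⟨s, -, hs⟩ := hΛ.exists_ampOn
  obtain ⟨c, c0, hc⟩ := (hs.dsc_iff.1 h.neg).exists_add
  obtain ⟨m, hm⟩ := exists_nat_gt c
  have q : ∀ D, Smp ((ε / 2) • Λ + (D - β)) → Nef (D - (Γ + E)) ∧ Big (D - (Γ + E)) := fun D x => by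
    have u : D - (Γ + E) = (ε / 2) • Λ + (β - Γ - E - ε • Λ + ((ε / 2) • Λ + (D - β))) := by module
    rw [u]
    exact ⟨(hΛ.smul (half_pos e0).le).nef.add (nE.add x.nef),
      (bΛ.smul (half_pos e0)).add_nef (nE.add x.nef)⟩
  obtain ⟨⟨H, Z⟩, nv⟩ := zarh n K hK (Option ι) Λ (fun o => o.elim ((m : ℝ) • mx s) z)
    (fun _ => Γ + E) hΛ bΛ fun o => by
      have r : Klt (n + 1) (Γ + E) ∧ Bdy n Λ (Γ + E) :=
        ⟨kE, fun P p => by rw [dsc_add]; exact sub_nonpos.2 ((b P p).trans (E0 P))⟩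
      cases o with
      | none => exact ⟨CarZ.carQ (CarZ.nsmul (mx_mem_CarZ s) m), hs.1.smul _, add_mem hΓ cE, r.1,
          r.2, q _ ((hΛ.smul (half_pos e0).le).add
            (neg_add_eq_sub β ((m : ℝ) • mx s) ▸ hc m hm.le))⟩
      | some i => exact ⟨(hz i).1, (hz i).2.1, add_mem hΓ cE, r.1, r.2, q _ (hz i).2.2.1⟩
  refine ⟨Option ι, inferInstance, _, H, fun o => o.elim 0 w, fun o => o.elim 1 0, Z, nv,
    fun o => ?_, fun o => ?_, ?_, ?_⟩
  · cases o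
    exacts [le_rfl, w0 _]
  · cases o
    exacts [zero_le_one, le_rfl]
  · simpa [lc] using hw
  · simpa [lc] using hs.smul (c0.trans hm)

/-- **non-vanishing and Zariski decomposition** for a real adjoint class -/
theorem zd_adj (hK : FF K (n + 1)) (bΛ : Big Λ) (h : Dsc Λ β) (hΓ : Γ ∈ Car K)
    (k : Klt (n + 1) Γ) (b : Bdy n Λ Γ) (h1 : Nef (β - Γ)) (h2 : Big (β - Γ)) (p : Psef β) :
    Eff β ∧ Smp (mob β) ∧ ZD β (sig β) := by
  obtain ⟨ι, _, D, H, a, e, Z, nv, a0, -, rfl, -⟩ := adj_real hK bΛ h hΓ k b h1 h2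
  exact ⟨nv a a0 p, Z.smp ⟨a0, nv a a0 p⟩, Z.zd ⟨a0, nv a a0 p⟩⟩

/-- the fixed part of an adjoint class is the asymptotic one -/
theorem sig_le_of (hK : FF K (n + 1)) (bΛ : Big Λ) (h : Dsc Λ β) (hΓ : Γ ∈ Car K)
    (k : Klt (n + 1) Γ) (b : Bdy n Λ Γ) (h1 : Nef (β - Γ)) (h2 : Big (β - Γ)) (p : Psef β)
    {N : BD K} (hγ : γ ∈ Car K) (hN : ∀ ε : ℝ, 0 < ε → Eff (β + ε • γ) ∧ sig (β + ε • γ) ≤ N) :
    sig β ≤ N := fun P => by
  obtain ⟨ι, _, D, H, a, e, Z, nv, a0, e0, rfl, he⟩ := adj_real hK bΛ h hΓ k b h1 h2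
  have be := he.big_iff.1 bΛ
  obtain ⟨δ, d0, G, hG⟩ := be.exists_eff hγ
  have t : Tendsto (fun t : ℝ => a + t • e) (𝓝[>] 0) (𝓝[Ef D] a) :=
    tendsto_nhdsWithin_iff.2 ⟨(Continuous.tendsto' (by fun_prop) 0 a (by simp)).mono_left
      nhdsWithin_le_nhds, eventually_mem_nhdsWithin.mono fun t ht =>
        ⟨add_nonneg a0 (smul_nonneg ht.le e0), by
          rw [lc_add, lc_smul]
          exact (p.add_big (be.smul ht)).eff⟩⟩
  have c := ((continuous_apply P).tendsto _).comp ((Z.cont a ⟨a0, nv a a0 p⟩).tendsto.comp t)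
  refine le_of_tendsto_of_tendsto c (g := fun t : ℝ => N P + t * G P)
    ((Continuous.tendsto' (by fun_prop) 0 _ (by simp)).mono_left nhdsWithin_le_nhds)
    (eventually_mem_nhdsWithin.mono fun t ht => ?_)
  have ht : 0 < t := ht
  have r := hG.smul ht.le
  obtain ⟨x, y⟩ := hN (t * δ) (mul_pos ht d0)
  have u : lc D (a + t • e) = lc D a + (t * δ) • γ + t • (lc D e - δ • γ) := by
    rw [lc_add, lc_smul]; module
  change sig (lc D (a + t • e)) P ≤ _
  rw [u]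
  exact (sig_add_le x r.eff P).trans (add_le_add (y P) (r.sig_le P))

/-- **BPF**: the base point free theorem -/
theorem bpf (hK : FF K (n + 1)) (bΛ : Big Λ) (h : Dsc Λ β) (hΓ : Γ ∈ Car K)
    (k : Klt (n + 1) Γ) (b : Bdy n Λ Γ) (h1 : Nef (β - Γ)) (h2 : Big (β - Γ)) (p : Nef β) :
    Smp β := by
  obtain ⟨s, hs⟩ := id p
  have z := sig_le_of hK bΛ h hΓ k b h1 h2 p.psef (N := 0) (mx_mem_Car s) fun ε e =>
    ⟨(hs ε e).eff, (hs ε e).sig_eq.le⟩
  have m := (zd_adj hK bΛ h hΓ k b h1 h2 p.psef).2.1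
  rwa [mob, le_antisymm z (sig_nonneg β), sub_zero] at m

/-- nef plus a little of the base is semiample, for a pair which is weak Fano over `V Λ` -/
theorem smp_add (hK : FF K (n + 1)) {c : ℝ} (hΛ : Smp Λ) (b₁ : Big Λ₁) (d : Dsc Λ₁ Λ)
    (b : Bdy n Λ₁ Γ) (k : Klt (n + 1) Γ) (h1 : Nef (c • Λ - Γ)) (h2 : Big (c • Λ - Γ))
    (h : Dsc Λ₁ β) (p : Nef β) {δ : ℝ} (e : 0 < δ) : Smp (β + δ • Λ) := by
  have c0 : 0 < (|c| + 1) / δ := by positivity
  have hΓ : Γ ∈ Car K := by simpa using sub_mem ((Car K).smul_mem c hΛ.car) h1.car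
  have u : ((|c| + 1) / δ) • (β + δ • Λ) - Γ =
      c • Λ - Γ + (((|c| + 1) / δ) • β + (|c| + 1 - c) • Λ) := by
    rw [smul_add, smul_smul, div_mul_cancel₀ _ e.ne']; module
  have v := (p.smul c0.le).add (hΛ.nef.smul (c := |c| + 1 - c) (by linarith [le_abs_self c]))
  exact .of_smul c0 (bpf hK b₁ ((h.add (d.smul δ)).smul _) hΓ k b (u ▸ h1.add v)
    (u ▸ h2.add_nef v) ((p.add (hΛ.nef.smul e.le)).smul c0.le))

/-- the row `KLK` -/
theorem klk : KLK := fun n K _ _ hK Λ Λ₁ Γ c hΛ _ b₁ _ d b k h1 h2 β h p => by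
  refine ⟨fun a q => ?_, fun g A hA => ?_⟩
  · have x := smp_add hK hΛ b₁ d b k h1 h2 h p (δ := |a| + 1) (by positivity)
    have y := smp_add hK hΛ b₁ d b k h1 h2 ((d.smul a).sub h) q (δ := |a| + 1 - a)
      (by linarith [le_abs_self a])
    have a0 : 0 < |a| + 1 := by positivity
    refine ⟨_, inv_pos.2 a0, .of_smul a0 ?_, .of_smul a0 ?_⟩
    · rwa [smul_add, smul_inv_smul₀ a0.ne', add_comm]
    · rw [smul_sub, smul_inv_smul₀ a0.ne',
        show (|a| + 1) • Λ - β = a • Λ - β + (|a| + 1 - a) • Λ by module]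
      exact y
  · obtain ⟨ε, e, x⟩ := hA.2
    refine ⟨hA.1.add g, ε / 2, half_pos e, ?_⟩
    rw [show A + β - (ε / 2) • Λ = A - ε • Λ + (β + (ε / 2) • Λ) by module]
    exact x.add (smp_add hK hΛ b₁ d b k h1 h2 h p (half_pos e))

/-- Kleiman on a klt variety -/
theorem amp_nef (hK : FF K (n + 1)) (bΛ : Big Λ) (d : Dsc Λ Γ) (b : Bdy n Λ Γ)
    (k : Klt (n + 1) Γ) (h : Dsc Λ β) (p : Nef β) (hA : AmpOn Λ A) : AmpOn Λ (A + β) := by
  obtain ⟨c, -, hc⟩ := (AmpOn.refl d.smp).exists_large d.neg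
  have x := hc c le_rfl
  rw [neg_add_eq_sub] at x
  exact (klk n K hK Λ Λ Γ c d.smp d.smp bΛ d (.refl d.smp) b k x.nef (x.big_iff.1 bΛ) β h p).2 h A hA

/-- on a weak log Fano pair nef divisors are semiample -/
theorem smp_of_fano (hK : FF K (n + 1)) (b₁ : Big Λ) (b : Bdy n Λ Γ) (k : Klt (n + 1) Γ)
    (h1 : Nef (-Γ)) (h2 : Big (-Γ)) (h : Dsc Λ β) (p : Nef β) : Smp β := by
  simpa using smp_add hK (c := 0) Smp.zero b₁ (.zero h.smp) b k (by simpa using h1)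
    (by simpa using h2) h p one_pos

end Vale.Agent.P287D.Pr
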